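import Vale.Agent.P042.H860.Glue
import Vale.Agent.P042.H85.PFin
import Vale.Agent.P042.H387.Par
import Vale.Agent.P042.H883.Frame
import Vale.Agent.P042.H452.PairR
import Vale.Agent.P042.H945.PLawA
import Vale.Agent.P042.H121.F1d

set_option autoImplicit false

/-!
# P042, power regime: the two parts of the local theorem

`LawF` (law side: the hypotheses `H92.PLaw` for the two cells of the state, any system of sites)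
and `F1F` (absolute bounds (F1*), (A*) for the cells of the state).  Order of the constants:
degree, local constants `Loc`, thresholds of the parameters of the state, parameters, truncation
`θ`, quality `κ`, `P`.
-/

namespace Vale.Agent.P042.H860

open Polynomial Finset Vale.Agent.P042.SS Vale.Agent.P042.H74 Vale.Agent.P042.H452
open Vale.Agent.P042.H739 Vale.Agent.P042.H245 Vale.Agent.P042.H359
open Vale.Agent.P042.H945 (cl rst ms SM lamR)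
open Vale.Agent.P042.H858 (pf)
open Vale.Agent.P042.H599 (cm Law)
open Vale.Agent.P042.H438 (Rs)
open Vale.Agent.P042.H92 (Prm PLaw PPair Scl BTSof BOof)
open Vale.Agent.P042.H883 (JT snT ellT scT esN)

/-- the constants of the local part at one degree `k` and one content `R`, in the order of their
choice -/
structure Loc where
  C1 : ℝ
  cr : ℝ
  C2 : ℝ
  c4 : ℝ
  CK : ℕ
  G : ℝ
  gs : ℝ
  δ0 : ℝ
  k0 : ℝ
  g : ℝ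
  kap : ℝ
  d1 : ℝ
  γ : ℝ
  α : ℝ
  a0 : ℝ
  K1 : ℕ

/-- the parameters of the local part -/
noncomputable def Loc.Q (z : Loc) (θ c0 cD p : ℝ) : Prm :=
  ⟨p, z.C1, z.γ, z.a0, θ, c0, cD, z.kap, z.d1, z.G, z.CK⟩

/-- the relations between the constants -/
structure LocOk (z : Loc) : Prop where
  C1 : 4 ≤ z.C1
  cr : z.cr = 1 / (2 ^ 11 * z.C1)
  C2 : 0 ≤ z.C2
  c4 : 0 < z.c4
  CK : 12 ≤ z.CK
  G0 : 0 < z.G
  G1 : z.G ≤ 1 / 4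
  gs : 0 < z.gs
  δ0 : 0 < z.δ0
  k0 : 0 < z.k0
  k01 : z.k0 ≤ 1
  g0 : 0 < z.g
  ggs : 8 * z.g ≤ z.gs
  gC1 : 32 * (z.g * z.C1) ≤ 1
  kap : z.kap = z.g / 32
  d1 : z.d1 = 16 * (z.g * z.C1)
  d1k : z.d1 ≤ z.k0
  d1CK : 16 * (z.d1 * z.CK) ≤ z.G
  γ0 : 0 < z.γ
  γk : z.γ ≤ z.k0 * z.kap
  γkap : z.γ ≤ z.kap / 2000
  α0 : 0 < z.α
  αγ : z.α = z.γ / (64 * z.C1)
  a0 : z.a0 = 10

/-- the constants of the state -/
noncomputable def cstOf (z : Loc) : H387.Cst where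
  γ := z.α
  G := z.G
  a1 := 2 * z.d1
  Kc := 1
  CK := z.CK - 1

/-- the instances at the parameters `k R κ P` of the state -/
structure At (C1 : ℕ → ℝ) (cs : ℕ → ℕ → H387.Cst) (par : ℕ → ℕ → ℝ → H362.FP) (k R : ℕ)
    (κ P : ℝ) (I : Inst) : Prop where
  hk : I.k = k
  hR : I.R = R
  hK0 : I.K0 = H387.K0fun par k R κ
  hC1 : I.C1 = C1 k
  hP : I.P = P
  ok : Ok I κ
  st : H362.StF1 (H362.WF (par k R κ) k R P) (par k R κ) (H387.mkFam C1 cs par k R κ P) I.f I.N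
    I.mu ((par k R κ).kp * P / 64) (P / (16 * k))

/-- the law hypotheses for one system of sites -/
def LawAt (I : Inst) (Q : Prm) : Prop :=
  ∀ (ι : Type) [Fintype ι] [DecidableEq ι] (q : ι → ℕ) [∀ i, NeZero (q i)] (S : Finset ι)
    (es : ι → ℝ), Rs (V := fun i => ZMod (q i)) q (rn q) →
    (∀ i ∈ S, q i ∈ Typ I.K0 I.C1 I.P) → (∀ p ∈ Typ I.K0 I.C1 I.P, ∃ i ∈ S, q i = p) →
    (∀ i, i ∉ S → ∀ p ∈ Typ I.K0 I.C1 I.P, ¬ p ∣ q i) → (∀ i, (q i).Coprime I.q0) →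
    (∀ i ∈ S, es i = esN (q i)) →
    PLaw Q S (fun i => Real.log (q i)) es (lamR S q (rn q) I.mu I.N) (H438.uw q)
        (pf (rn q) I.nu1 1 I.N) ∧
      PLaw Q S (fun i => Real.log (q i)) es (lamR S q (rn q) I.mu I.N) (H438.uw q)
        (pf (rn q) I.nu2 1 I.N)

/-- the parameters of the state at `k`, `R` fit with the constants `z` and the thresholds -/
structure FitAt (z : Loc) (thr : ℝ → ℕ) (thb : ℝ → ℕ → ℝ) (C1 : ℕ → ℝ)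
    (cs : ℕ → ℕ → H387.Cst) (par : ℕ → ℕ → ℝ → H362.FP) (k R : ℕ) : Prop where
  eC1 : C1 k = z.C1
  ecs : cs k R = cstOf z
  fit : ∀ κ : ℝ, 0 < κ → H387.Fit C1 cs (fun _ _ _ => 1) (fun _ _ => thr) (fun _ _ => thb) k R κ
    (par k R κ)

/-- **the law side** (945) -/
def LawF : Prop := ∀ (k R : ℕ) (z : Loc), 2 ≤ k → 1 ≤ R → LocOk z →
  ∃ (thr : ℝ → ℕ) (thb : ℝ → ℕ → ℝ), (∀ κ n, 0 < thb κ n) ∧
  ∀ (C1 : ℕ → ℝ) (cs : ℕ → ℕ → H387.Cst) (par : ℕ → ℕ → ℝ → H362.FP),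
    FitAt z thr thb C1 cs par k R →
  ∃ θ0 : ℝ, 0 < θ0 ∧ ∀ θ : ℝ, 0 < θ → θ ≤ θ0 →
  ∃ κs : ℝ, 0 < κs ∧ ∀ κ : ℝ, 0 < κ → κ ≤ κs →
  ∃ c0 cD : ℝ, 0 < c0 ∧ 0 < cD ∧ cD ≤ z.k0 * (z.γ * θ) ∧
  ∃ P0 : ℝ, ∀ P : ℝ, P0 ≤ P → ∀ I : Inst, At C1 cs par k R κ P I →
    LawAt I (z.Q θ c0 cD (Real.log P))

/-- the prime of a site -/
abbrev prm {I : Inst} (i : Si I.K0 I.C1 I.P) : ℕ := i.1

/-- the reference of the kernels -/
noncomputable def ref2 (I : Inst) (kap : ℝ) : ∀ i : Si I.K0 I.C1 I.P, ZMod (prm i) → ℝ :=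
  lam2R (lo I kap) (lamR univ prm (rn prm) I.mu I.N) prm

/-- the family with the moduli at the normalised cells; `K` = kernels on the residues -/
noncomputable def FBI (I : Inst) (kap : ℝ)
    (K : ∀ i : Si I.K0 I.C1 I.P, ZMod (prm i) → ZMod (prm i) → ℝ) (m : ℕ)
    (B : Finset (Si I.K0 I.C1 I.P)) : ℂ :=
  H85.FBa I.g I.PP I.S1 I.S2 I.f1 I.f2 prm (lo I kap)
    (fun i n n' => K i.1 (redZ prm n i.1) (redZ prm n' i.1)) m B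

/-- the bounds (F1*) and (A*) at one instance -/
def F1At (I : Inst) (z : Loc) (θ : ℝ)
    (K : ∀ i : Si I.K0 I.C1 I.P, ZMod (prm i) → ZMod (prm i) → ℝ) : Prop :=
  ∀ b0 : ℕ, (b0 : ℝ) ≤ 2 * I.P ^ (12 * (z.g * z.C1)) →
    ∀ r : JT I.K0 I.C1 I.P → ℝ, (∀ j, 0 ≤ r j) →
    (∀ j, r j ≤ min (Real.exp (z.cr * ellT j)) ((b0 : ℝ) ^ z.cr)) →
    (∑ B ∈ H121.DDm (lo I z.kap) prm ⌊θ * I.P / Real.log I.P⌋₊ ⌊Real.exp (θ * I.P)⌋₊ 1,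
      ‖FBI I z.kap K 1 B‖ * ∏ i ∈ B, r (scT i) ≤
        Real.exp (z.C2 + ∑ j, Real.exp (8 * z.g * ellT j) * (r j + r j ^ 2))) ∧
    ∀ (M : Finset ℕ), (∀ m ∈ M, 1 ≤ m ∧ (∀ p ∈ Tst I.K0, ¬ p ∣ m) ∧
        ∀ i : Si I.K0 I.C1 I.P, ¬ prm i ∣ m) →
      ∀ Z : ℝ, 1 ≤ Z → (∀ m ∈ M, Z < m) →
      ∑ m ∈ M, ∑ B ∈ H121.DDm (lo I z.kap) prm ⌊θ * I.P / Real.log I.P⌋₊
        ⌊Real.exp (θ * I.P)⌋₊ m, ‖FBI I z.kap K m B‖ * ∏ i ∈ B, r (scT i) ≤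
        z.δ0 * Real.exp (-(z.c4 * Real.log Z)) *
          Real.exp (z.C2 + ∑ j, Real.exp (8 * z.g * ellT j) * (r j + r j ^ 2))

/-- **the absolute bounds** (258), `C2 c4` depend on `k`, `R` only -/
def F1F : Prop := ∀ k R : ℕ, 2 ≤ k → 1 ≤ R → ∃ C2 c4 : ℝ, 0 ≤ C2 ∧ 0 < c4 ∧
  ∀ z : Loc, LocOk z → z.C2 = C2 → z.c4 = c4 →
  ∃ (thr : ℝ → ℕ) (thb : ℝ → ℕ → ℝ), (∀ κ n, 0 < thb κ n) ∧
  ∀ (C1 : ℕ → ℝ) (cs : ℕ → ℕ → H387.Cst) (par : ℕ → ℕ → ℝ → H362.FP),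
    FitAt z thr thb C1 cs par k R →
  ∃ θ0 : ℝ, 0 < θ0 ∧ ∀ θ : ℝ, 0 < θ → θ ≤ θ0 →
  ∃ κs : ℝ, 0 < κs ∧ ∀ κ : ℝ, 0 < κ → κ ≤ κs →
  ∃ P0 : ℝ, ∀ P : ℝ, P0 ≤ P → ∀ I : Inst, At C1 cs par k R κ P I →
  ∀ (K : ∀ i : Si I.K0 I.C1 I.P, ZMod (prm i) → ZMod (prm i) → ℝ)
    (w w' : ∀ i : Si I.K0 I.C1 I.P, ZMod (prm i) → ℝ)
    (s : ∀ i : Si I.K0 I.C1 I.P, ZMod (prm i) → ZMod (prm i) → ℝ)
    (rho ee : Si I.K0 I.C1 I.P → ℝ),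
    H365.OB (ref2 I z.kap) K (fun _ => 0) w w' s rho ee →
    (∀ i, rho i ≤ Real.exp (-(1 / 2) * esN (prm i) + z.γ * esN (prm i))) →
    (∀ i, ee i ≤ Real.exp (-esN (prm i) + z.γ * esN (prm i))) →
    (∀ i, ¬ lo I z.kap i → ∀ n n' : ℤ,
      K i (redZ prm n i) (redZ prm n' i) = kN I.g (prm i) (n - n')) →
    F1At I z θ K

/-- a weaker threshold -/
theorem FitAt.mono {z : Loc} {thr thr' : ℝ → ℕ} {thb thb' : ℝ → ℕ → ℝ} {C1 : ℕ → ℝ}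
    {cs : ℕ → ℕ → H387.Cst} {par : ℕ → ℕ → ℝ → H362.FP} {k R : ℕ}
    (h : FitAt z thr' thb' C1 cs par k R) (h1 : ∀ κ, thr κ ≤ thr' κ)
    (h2 : ∀ κ n, thb' κ n ≤ thb κ n) : FitAt z thr thb C1 cs par k R :=
  ⟨h.eC1, h.ecs, fun κ hκ => (h.fit κ hκ).mono (h1 κ) fun n => h2 κ n⟩

end Vale.Agent.P042.H860
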