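import Vale.Agent.P042.H860.Inst
import Vale.Agent.P042.H386.K6

set_option autoImplicit false

/-!
# P042, power regime: the dictionary of one instance of `HLOC`
-/

namespace Vale.Agent.P042.H860

open Polynomial Finset Vale.Agent.P042.SS Vale.Agent.P042.H74 Vale.Agent.P042.H452
open Vale.Agent.P042.H739 Vale.Agent.P042.H245 Vale.Agent.P042.H359
open Vale.Agent.P042.H945 (cl rst ms SM)
open Vale.Agent.P042.H858 (pf)
open Vale.Agent.P042.H599 (cm Law)

/-! ### laws -/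

/-- **the weight of a cell and the image of the law of the cell** -/
theorem pw_im {N : ℕ} {mu : ℕ → ℝ} {G : ℤ → ℝ}
    (hG : ∀ n : ℤ, G n = if 1 ≤ n then (N : ℝ) * mu n.toNat else 0) {qc : ℕ} [NeZero qc]
    (w : ZMod qc) {z V : ℕ} (hz : z + V ≤ N) (hN : 0 < N) {a : Type} [Fintype a] [DecidableEq a]
    (q : a → ℕ) [∀ i, NeZero (q i)] :
    H85.pw (redZ q) (cell qc w z V) (fun n => G n / cmass G qc w z V) =
      pf (rn q) (rst mu N (cl qc w.val (z + 1) (z + V))) 1 N := by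
  classical
  funext x
  have hN0 : (0 : ℝ) < N := by exact_mod_cast hN
  have hc : cell qc w (z : ℤ) V = cellZ qc w.val (z + 1) (z + V) := by
    unfold cell
    exact cellZ_eq w z V
  have h1 : H85.pw (redZ q) (cell qc w z V) (fun n => G n / cmass G qc w z V) x =
      (∑ n ∈ cellZ qc w.val (z + 1) (z + V), if redZ q n = x then G n else 0) /
        cmass G qc w z V := by
    unfold H85.pw
    rw [hc, sum_div]
    refine sum_congr rfl fun n _ => ?_
    split_ifs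
    · rfl
    · simp
  rw [h1, sum_cellZ hG (by omega) hz (fun n => redZ q n = x), cmass_eq hG w hz,
    mul_div_mul_left _ _ hN0.ne']
  have h2 : pf (rn q) (rst mu N (cl qc w.val (z + 1) (z + V))) 1 N x =
      ∑ j ∈ range N, if redZ q ((1 + j : ℕ) : ℤ) = x
        then rst mu N (cl qc w.val (z + 1) (z + V)) (1 + j) else 0 := by
    unfold pf H461.push
    rw [sum_filter, sum_range]
    refine sum_congr rfl fun j _ => ?_
    have h3 : (H858.pt (rn q) 1 N j = x) ↔ (redZ q ((1 + (j : ℕ) : ℕ) : ℤ) = x) := by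
      have : H858.pt (rn q) 1 N j = redZ q ((1 + (j : ℕ) : ℕ) : ℤ) := by
        funext i
        simp [H858.pt, rn, redZ]
      rw [this]
    by_cases h4 : H858.pt (rn q) 1 N j = x
    · rw [if_pos h4, if_pos (h3.1 h4)]
      rfl
    · rw [if_neg h4, if_neg fun h => h4 (h3.2 h)]
  rw [h2]
  have h5 : ms mu N (fun n => cl qc w.val (z + 1) (z + V) n ∧ redZ q (n : ℤ) = x) =
      ∑ j ∈ range N, if redZ q ((1 + j : ℕ) : ℤ) = x
        then (if cl qc w.val (z + 1) (z + V) (1 + j) then mu (1 + j) else 0) else 0 := by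
    unfold ms SM
    refine sum_congr rfl fun j _ => ?_
    by_cases h6 : redZ q ((1 + j : ℕ) : ℤ) = x <;>
      by_cases h7 : cl qc w.val (z + 1) (z + V) (1 + j) <;> simp [h6, h7]
  rw [h5, sum_div]
  refine sum_congr rfl fun j _ => ?_
  by_cases h6 : redZ q ((1 + j : ℕ) : ℤ) = x
  · rw [if_pos h6, if_pos h6]
    unfold rst ms
    by_cases h7 : cl qc w.val (z + 1) (z + V) (1 + j)
    · rw [if_pos h7, if_pos h7]
    · rw [if_neg h7, if_neg h7, zero_div]
  · rw [if_neg h6, if_neg h6, zero_div]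

/-! ### primes -/

/-- the hypotheses at an instance -/
structure Ok (I : Inst) (κ : ℝ) : Prop where
  k2 : 2 ≤ I.k
  R1 : 1 ≤ I.R
  K0R : I.R ≤ I.K0
  K0k : 2 * I.k ≤ I.K0
  deg : I.f.natDegree = I.k
  lead : 0 < I.f.leadingCoeff
  cont : ∀ g : ℤ, (∀ j : ℕ, 1 ≤ j → g ∣ I.f.coeff j) → g ∣ (I.R : ℤ)
  base : Base6 I.f κ I.P I.N I.G
  hG : ∀ n : ℤ, I.G n = if 1 ≤ n then (I.N : ℝ) * I.mu n.toNat else 0
  tiny : TinyD I.f (Tst I.K0) (Vp I.k I.R) I.q1 I.z0
  z1N : I.z1 + I.h0 ≤ I.N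
  z2N : I.z2 + I.h0 ≤ I.N
  hN : I.N ≤ 100 * I.h0
  ma1 : (I.h0 : ℝ) / 2 ≤ I.q0 * I.m1
  ma2 : (I.h0 : ℝ) / 2 ≤ I.q0 * I.m2

section
variable {I : Inst} {κ : ℝ}

/-- primes above `K0` are good for `f` -/
theorem Ok.gp (h : Ok I κ) {p : ℕ} (hp : p.Prime) (hK : I.K0 < p) : H386.GP I.f p := by
  refine ⟨hp, ?_, ?_, ?_⟩
  · rw [h.deg]
    have := h.K0k
    omega
  · rw [h.deg]
    have := h.k2
    omega
  · by_contra hc
    push Not at hc
    have h1 := h.cont p (fun j hj => hc j hj)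
    have h2 : p ∣ I.R := by exact_mod_cast h1
    have h3 := Nat.le_of_dvd (by have := h.R1; omega) h2
    have := h.K0R
    omega

theorem Ok.not_dvd_q1 (h : Ok I κ) {p : ℕ} (hp : p.Prime) (hK : I.K0 < p) : ¬ p ∣ I.q1 := by
  intro hd
  have h1 := h.tiny.mem_of_dvd_q1 hp hd
  simp only [Tst, mem_filter, mem_range] at h1
  omega

/-- primes above `K0` are good for the fibre polynomial -/
theorem Ok.gpg (h : Ok I κ) {p : ℕ} (hp : p.Prime) (hK : I.K0 < p) : H386.GP I.g p :=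
  (h.gp hp hK).fer (h.not_dvd_q1 hp hK) _

theorem Ok.q1_pos (h : Ok I κ) : 1 ≤ I.q1 := h.tiny.q1_pos

theorem Ok.gdeg (h : Ok I κ) : I.g.natDegree = I.k := by
  unfold Inst.g
  rw [fer_natDegree I.f I.q1 h.q1_pos I.z0, h.deg]

/-- **the primes of the sieve weight are the sites** -/
theorem Ok.PP_eq (h : Ok I κ) : I.PP = Typ I.K0 I.C1 I.P := by
  ext p
  unfold Inst.PP
  rw [mem_PPf, mem_Typ]
  constructor
  · rintro ⟨h1, h2, h3, h4⟩
    refine ⟨h4, h1, ?_⟩
    have h5 := h.tiny.notMem_of_nonconst h3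
    simp only [Tst, mem_filter, mem_range] at h5
    by_contra hc
    exact h5 ⟨by omega, h1⟩
  · rintro ⟨h1, h2, h3⟩
    have h4 := h.gpg h2 h3
    refine ⟨h2, ?_, h4.nc, h1⟩
    rw [h.gdeg]
    have := h.K0k
    omega

/-- the residues of the fibre polynomial exist -/
theorem Ok.NS (h : Ok I κ) : NS I.g I.PP := by
  intro p hp
  rw [h.PP_eq, mem_Typ] at hp
  have h1 := (h.gpg hp.2.1 hp.2.2).dns
  exact ⟨hp.2.1, by linarith⟩

theorem Ok.q0_pos (h : Ok I κ) : 1 ≤ I.q0 := qnul_pos _ h.tiny.q1_pos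

/-- the primes of the state -/
theorem WF_eq (q : H362.FP) (k R K0 : ℕ) (P : ℝ) (hK : K0 = max (max q.K0 R) (2 * k)) :
    H362.WF q k R P = Typ K0 q.C1 P := by
  rw [hK]
  rfl

/-- a site is low -/
def lo (I : Inst) (kap : ℝ) (i : Si I.K0 I.C1 I.P) : Prop := i.1 ∈ Wst I.K0 kap I.P

noncomputable instance (I : Inst) (kap : ℝ) : DecidablePred (lo I kap) :=
  fun _ => Classical.propDecidable _

theorem Wst_sub {K0 : ℕ} {C1 kap P : ℝ} (hP : 1 ≤ P) (hC : 2 - kap ≤ C1) :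
    Wst K0 kap P ⊆ Typ K0 C1 P := by
  intro p hp
  simp only [Wst, mem_filter, mem_range, Nat.lt_succ_iff] at hp
  rw [mem_Typ]
  exact ⟨hp.1.trans (Nat.floor_le_floor (Real.rpow_le_rpow_of_exponent_le hP hC)), hp.2⟩

/-- the low sites are the primes of the integer side -/
def loEquiv (I : Inst) (kap : ℝ) (hsub : Wst I.K0 kap I.P ⊆ Typ I.K0 I.C1 I.P) :
    {i : Si I.K0 I.C1 I.P // lo I kap i} ≃ {p // p ∈ Wst I.K0 kap I.P} where
  toFun i := ⟨i.1.1, i.2⟩
  invFun p := ⟨⟨p.1, hsub p.2⟩, p.2⟩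
  left_inv _ := rfl
  right_inv _ := rfl

end

end Vale.Agent.P042.H860
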