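import Vale.Agent.P042.H739.LowF
import Vale.Agent.P042.H85.Dict
import Vale.Agent.P042.H362.StF
import Vale.Agent.P042.H858.PushZ
import Vale.Agent.P042.H359.Choose

set_option autoImplicit false

/-!
# P042, power regime: one instance of the local hypothesis `HLOC` of the integer side

Index set = all primes of `(K0, P ^ C1]`, alphabets `ZMod p`, the two laws = images of the two
cells.  With a super-modulus `m` the index set is `Option` of it, alphabet `ZMod m` at `none`.
-/

namespace Vale.Agent.P042.H860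

open Polynomial Finset Vale.Agent.P042.SS Vale.Agent.P042.H74 Vale.Agent.P042.H452
open Vale.Agent.P042.H739 Vale.Agent.P042.H245 Vale.Agent.P042.H359
open Vale.Agent.P042.H945 (cl rst ms SM)
open Vale.Agent.P042.H858 (pf)
open Vale.Agent.P042.H599 (cm Law)

/-- the primes of `(K0, P ^ C1]` -/
noncomputable def Typ (K0 : ℕ) (C1 P : ℝ) : Finset ℕ :=
  (range (⌊P ^ C1⌋₊ + 1)).filter fun p => p.Prime ∧ K0 < p

theorem mem_Typ {K0 : ℕ} {C1 P : ℝ} {p : ℕ} :
    p ∈ Typ K0 C1 P ↔ p ≤ ⌊P ^ C1⌋₊ ∧ p.Prime ∧ K0 < p := by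
  simp [Typ]

/-- the sites -/
abbrev Si (K0 : ℕ) (C1 P : ℝ) := {p : ℕ // p ∈ Typ K0 C1 P}

instance {K0 : ℕ} {C1 P : ℝ} (i : Si K0 C1 P) : NeZero i.1 :=
  ⟨(mem_Typ.1 i.2).2.1.ne_zero⟩

/-- the moduli of the sites with one super-modulus -/
def mo {a : Type} (q : a → ℕ) (m : ℕ) : Option a → ℕ := fun o => o.elim m q

instance {a : Type} (q : a → ℕ) (m : ℕ) [h : ∀ i, NeZero (q i)] [NeZero m] (o : Option a) :
    NeZero (mo q m o) := by
  cases o with
  | none => exact inferInstanceAs (NeZero m)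
  | some i => exact h i

/-- the residues of a natural number (of an integer: `H359.redZ`) -/
def rn {a : Type} (q : a → ℕ) (i : a) (n : ℕ) : ZMod (q i) := (n : ZMod (q i))

/-- one instance of the data of `HLOC` -/
structure Inst where
  k : ℕ
  R : ℕ
  K0 : ℕ
  C1 : ℝ
  P : ℝ
  f : ℤ[X]
  N : ℕ
  G : ℤ → ℝ
  mu : ℕ → ℝ
  z0 : ℕ
  h0 : ℕ
  z1 : ℕ
  z2 : ℕ
  w : ZMod (q0s k R K0 f z0)

namespace Inst

variable (I : Inst)

/-- the modulus of the cells -/
noncomputable abbrev q0 : ℕ := q0s I.k I.R I.K0 I.f I.z0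

/-- the modulus of the substitution -/
def q1 : ℕ := q1s I.k I.R I.K0

/-- the fibre polynomial -/
noncomputable def g : ℤ[X] := fer I.f I.q1 I.z0

/-- the primes of the sieve weight -/
noncomputable def PP : Finset ℕ := PPf I.C1 I.g I.P

/-- the class of the second cell -/
noncomputable def w' : ZMod I.q0 := I.w - ((I.f.eval (I.z0 : ℤ) : ℤ) : ZMod I.q0)

/-- the first cell -/
noncomputable def S1 : Finset ℤ := cell I.q0 I.w I.z1 I.h0

/-- the second cell -/
noncomputable def S2 : Finset ℤ := cell I.q0 I.w' I.z2 I.h0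

/-- the mass of the first cell -/
noncomputable def m1 : ℝ := cmass I.G I.q0 I.w I.z1 I.h0

/-- the mass of the second cell -/
noncomputable def m2 : ℝ := cmass I.G I.q0 I.w' I.z2 I.h0

/-- the normalised weights -/
noncomputable def f1 (n : ℤ) : ℝ := I.G n / I.m1

/-- the normalised weights -/
noncomputable def f2 (n : ℤ) : ℝ := I.G n / I.m2

/-- the law of the first cell -/
noncomputable def nu1 : ℕ → ℝ :=
  rst I.mu I.N (cl I.q0 (ZMod.val I.w) (I.z1 + 1) (I.z1 + I.h0))

/-- the law of the second cell -/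
noncomputable def nu2 : ℕ → ℝ :=
  rst I.mu I.N (cl I.q0 I.w'.val (I.z2 + 1) (I.z2 + I.h0))

/-- the image of a law on the integers -/
noncomputable def im {a : Type} [Fintype a] [DecidableEq a] (q : a → ℕ) [∀ i, NeZero (q i)]
    (nu : ℕ → ℝ) : (∀ i, ZMod (q i)) → ℝ := pf (rn q) nu 1 I.N

/-- the marginals of the global law -/
noncomputable def lam {a : Type} (q : a → ℕ) (i : a) (x : ZMod (q i)) : ℝ :=
  cm I.mu 1 I.N (q i) x.val

end Inst

end Vale.Agent.P042.H860
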