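import Vale.Agent.P042.H860.HEnd
import Vale.Agent.P042.H387.StateP
import Vale.Agent.P042.H92.BTSF
import Vale.Agent.P042.H564.BoF
import Vale.Agent.P042.H945.LawFin
import Vale.Agent.P042.H258.F1St

set_option autoImplicit false

/-!
# P042: power saving for every intersective polynomial
-/

namespace Vale.Agent.P042.H860

/-- **the local theorem** -/
theorem locF : H387.LocF :=
  locF_of H92.btsof (H564.Oo.boof_of H92.btsof) H945.lawF H258.f1F

/-- **power saving for every intersective polynomial** -/
theorem final6 : H739.Final6 := H387.final6_loc locF

end Vale.Agent.P042.H860
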