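import Vale.Agent.P042.H860.HNum
import Vale.Agent.P042.H85.HFin
import Vale.Agent.P042.H85.SupIn
import Vale.Agent.P042.H452.KIn
import Vale.Agent.P042.H362.TrI
import Vale.Agent.P042.H883.FrameI
import Vale.Agent.P042.H387.Top

set_option autoImplicit false

/-!
# P042, power regime: the local theorem from its four parts
-/

namespace Vale.Agent.P042.H860

open Polynomial Finset Vale.Agent.P042.SS Vale.Agent.P042.H74 Vale.Agent.P042.H452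
open Vale.Agent.P042.H739 Vale.Agent.P042.H245 Vale.Agent.P042.H359
open Vale.Agent.P042.H945 (cl rst ms SM lamR)
open Vale.Agent.P042.H858 (pf)
open Vale.Agent.P042.H599 (cm Law)
open Vale.Agent.P042.H438 (Rs)
open Vale.Agent.P042.H92 (Prm PLaw PPair Scl BTSof BOof)
open Vale.Agent.P042.H883 (JT snT ellT scT esN scI)
open Vale.Agent.P042.H85 (FBa pw SupI)
open Vale.Agent.P042.H121 (DDm)
open Vale.Agent.P042.H362 (MMt EndI LowS)

/-- the lower bound of `H85.hfin` at one `p` -/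
def HTail (k : ℕ) (C1 cr C2 c4 δ0 g d1 β' ε θH p : ℝ) (K0 : ℕ) (Q : Prm) : Prop :=
  ∀ (J : Type) [Fintype J] [DecidableEq J] (a : Type) [Fintype a] [DecidableEq a]
      (V : a → Type) [∀ i, Fintype (V i)] [∀ i, DecidableEq (V i)] (red : ℤ → ∀ i, V i)
      (ℓ es : a → ℝ) (sc : a → J) (sn : J → ℕ) (ell : J → ℝ) (lo' : a → Prop)
      (lam lam2 u : ∀ i, V i → ℝ) (K : ∀ i, V i → V i → ℝ) (c : a → ℝ) (v v' : ∀ i, V i → ℝ)
      (s : ∀ i, V i → V i → ℝ) (rho e : a → ℝ) (F : ℤ[X]) (PP T : Finset ℕ)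
      (S1 S2 : Finset ℤ) (f f' : ℤ → ℝ) (prm : a → ℕ) (lo : a → Prop) [DecidablePred lo]
      (Kl : {i // lo i} → ℤ → ℤ → ℝ),
      NS F PP → Function.Injective prm → (∀ i, prm i ∈ PP) →
      (∀ q ∈ T, q.Prime ∧ ∀ i, prm i ≠ q) → (∀ i, Real.log (prm i) ≤ C1 * p) →
      Scl Q K0 univ ℓ es sc sn ell →
      PPair Q univ ℓ es lo' lam lam2 u K c v v' s rho e (pw red S1 f) (pw red S2 f') →
      (∀ (i : {i // lo i}), ∀ n ∈ S1, ∀ n' ∈ S2, Kl i n n' = K i (red n i) (red n' i)) →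
      (∀ i, ¬ lo i → ∀ n ∈ S1, ∀ n' ∈ S2, kN F (prm i) (n - n') = K i (red n i) (red n' i)) →
      (∀ b0 : ℕ, (b0 : ℝ) ≤ 2 * Real.exp (β' * p) → ∀ r : J → ℝ, (∀ j, 0 ≤ r j) →
        (∀ j, r j ≤ min (Real.exp (cr * ell j)) ((b0 : ℝ) ^ cr)) →
        ∑ B ∈ DDm lo prm ⌊θH * Real.exp p / p⌋₊ ⌊Real.exp (θH * Real.exp p)⌋₊ 1,
          |(FBa F PP S1 S2 f f' prm lo Kl 1 B).re| * ∏ i ∈ B, r (sc i) ≤
          Real.exp (C2 + ∑ j, Real.exp (8 * g * ell j) * (r j + r j ^ 2))) →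
      (∀ b0 : ℕ, (b0 : ℝ) ≤ 2 * Real.exp (β' * p) → ∀ Z : ℝ, 1 ≤ Z → ∀ r : J → ℝ,
        (∀ j, 0 ≤ r j) → (∀ j, r j ≤ min (Real.exp (cr * ell j)) ((b0 : ℝ) ^ cr)) →
        ∑ m ∈ (MMt T prm ⌊Real.exp (θH * Real.exp p)⌋₊).filter (fun m : ℕ => Z < (m : ℝ)),
          ∑ B ∈ DDm lo prm ⌊θH * Real.exp p / p⌋₊ ⌊Real.exp (θH * Real.exp p)⌋₊ m,
          |(FBa F PP S1 S2 f f' prm lo Kl m B).re| * ∏ i ∈ B, r (sc i) ≤
          δ0 * Real.exp (-(c4 * Real.log Z)) *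
            Real.exp (C2 + ∑ j, Real.exp (8 * g * ell j) * (r j + r j ^ 2))) →
      (∀ m ∈ MMt T prm ⌊Real.exp (θH * Real.exp p)⌋₊, Real.log m ≤ Real.exp (2 * d1 * p) →
        SupI Q K0 k sc sn ell F PP S1 S2 f f' prm lo Kl m) →
      Real.exp (-(ε * Real.exp p)) ≤
        ‖∑ C ∈ low {i // lo i} ⌊θH * Real.exp p / p⌋₊,
          ∑ m2 ∈ MM T (fun i : {i // lo i} => prm i) ⌊Real.exp (θH * Real.exp p)⌋₊,
            FB F PP S1 S2 f f' Kl C m2‖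

/-- the kernels as functions of the integers -/
abbrev KlI (I : Inst) (kap : ℝ)
    (K : ∀ i : Si I.K0 I.C1 I.P, ZMod (prm i) → ZMod (prm i) → ℝ)
    (i : {i : Si I.K0 I.C1 I.P // lo I kap i}) (n n' : ℤ) : ℝ :=
  K i.1 (redZ prm n i.1) (redZ prm n' i.1)

/-- **one instance** -/
theorem end_at {k : ℕ} {z : Loc} (hz : LocOk z) {θ c0 cD ε κ : ℝ} {I : Inst}
    (hk : I.k = k) (hOk : Ok I κ) (hC1 : I.C1 = z.C1) (hP1 : Real.exp 1 ≤ I.P)
    (hKP : (H883.nlo I.K0 : ℝ) * Real.log 2 ≤ I.C1 * Real.log I.P + 1) (hK0 : 2 ^ z.K1 ≤ I.K0)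
    (hT : HTail k z.C1 z.cr z.C2 z.c4 z.δ0 z.g z.d1 (12 * (z.g * z.C1)) ε θ (Real.log I.P) z.K1
      (z.Q θ c0 cD (Real.log I.P)))
    (hlaw : LawAt I (z.Q θ c0 cD (Real.log I.P)))
    {K : ∀ i : Si I.K0 I.C1 I.P, ZMod (prm i) → ZMod (prm i) → ℝ}
    {w w' : ∀ i : Si I.K0 I.C1 I.P, ZMod (prm i) → ℝ}
    {s : ∀ i : Si I.K0 I.C1 I.P, ZMod (prm i) → ZMod (prm i) → ℝ}
    {rho ee : Si I.K0 I.C1 I.P → ℝ} (hTl : Tilts I z.kap K)
    (hhigh : ∀ i, ¬ lo I z.kap i → ∀ n m : ℤ,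
      K i (n : ZMod (prm i)) (m : ZMod (prm i)) = kN I.g (prm i) (n - m))
    (hKP' : KPair (z.Q θ c0 cD (Real.log I.P)) univ (fun i => esN (prm i)) (lo I z.kap) (lamS I)
      (ref2 I z.kap) (H438.uw prm) K (fun _ => 0) w w' s rho ee)
    (hopt : ∀ (m : ℕ) [NeZero m], 2 ≤ m → (∀ i : Si I.K0 I.C1 I.P, m.Coprime i.1) →
      KOpt I z.kap (z.Q θ c0 cD (Real.log I.P)) K rho ee m)
    (hF1 : F1At I z θ K) : EndI I z.kap θ ε := by
  have hP0 : 0 < I.P := (Real.exp_pos _).trans_le hP1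
  have h1P : 1 ≤ I.P := (Real.one_le_exp zero_le_one).trans hP1
  have hPe : Real.exp (Real.log I.P) = I.P := Real.exp_log hP0
  have hlog : 0 ≤ Real.log I.P := Real.log_nonneg h1P
  have hC4 : 4 ≤ I.C1 := by rw [hC1]; exact hz.C1
  have hkap0 := hz.kap0
  have hsub : Wst I.K0 z.kap I.P ⊆ Typ I.K0 I.C1 I.P := Wst_sub h1P (by linarith)
  have hm := H362.mass_pos hOk
  have hpow : I.P ^ (12 * (z.g * z.C1)) = Real.exp (12 * (z.g * z.C1) * Real.log I.P) := by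
    rw [Real.rpow_def_of_pos hP0, mul_comm]
  have hQC : (z.Q θ c0 cD (Real.log I.P)).C1 = I.C1 := hC1.symm
  have hQp : (z.Q θ c0 cD (Real.log I.P)).p = Real.log I.P := rfl
  have hCp : 0 ≤ (z.Q θ c0 cD (Real.log I.P)).C1 * (z.Q θ c0 cD (Real.log I.P)).p := by
    rw [hQC, hQp]
    exact mul_nonneg (by linarith) hlog
  have hn : (H883.nlo I.K0 : ℝ) * Real.log 2 ≤
      (z.Q θ c0 cD (Real.log I.P)).C1 * (z.Q θ c0 cD (Real.log I.P)).p + 1 := by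
    rw [hQC, hQp]
    exact hKP
  have habs : ∀ (m : ℕ) (B : Finset (Si I.K0 I.C1 I.P)),
      |(FBa I.g I.PP I.S1 I.S2 I.f1 I.f2 prm (lo I z.kap) (KlI I z.kap K) m B).re| ≤
        ‖FBI I z.kap K m B‖ := fun m B => Complex.abs_re_le_norm _
  have key := hT (JT I.K0 I.C1 I.P) (Si I.K0 I.C1 I.P) (fun i => ZMod (prm i)) (redZ prm)
    (fun i => Real.log (prm i)) (fun i => esN (prm i)) scI snT ellT (lo I z.kap) (lamS I)
    (ref2 I z.kap) (H438.uw prm) K (fun _ => 0) w w' s rho ee I.g I.PP (Tst I.K0) I.S1 I.S2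
    I.f1 I.f2 prm (lo I z.kap) (KlI I z.kap K) hOk.NS Subtype.val_injective
    (fun i => by rw [hOk.PP_eq]; exact i.2)
    (fun q hq => ⟨(H739.mem_Tst.1 hq).1, fun i h => by
      have h1 := (mem_Typ.1 i.2).2.2
      have h2 := (H739.mem_Tst.1 hq).2
      have h3 : i.1 = q := h
      omega⟩)
    (fun i => by
      have h1 := mem_Typ.1 i.2
      have h2 : ((prm i : ℕ) : ℝ) ≤ I.P ^ I.C1 :=
        (Nat.le_floor_iff (Real.rpow_nonneg hP0.le _)).1 h1.1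
      have h3 := Real.log_le_log (by exact_mod_cast h1.2.1.pos) h2
      rw [Real.log_rpow hP0, hC1] at h3
      exact h3)
    (H883.scl_si (z.Q θ c0 cD (Real.log I.P)) hQC hP0 hQp hK0 hCp hn)
    (H85.pair_i hOk hlaw hKP')
    (fun i n _ n' _ => rfl) (fun i hi n _ n' _ => (hhigh i hi n n').symm)
    (fun b0 hb0 r hr hr' => by
      have h := (hF1 b0 (by rw [hpow]; exact hb0) r hr hr').1
      rw [hPe]
      refine le_trans (sum_le_sum fun B _ => ?_) h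
      exact mul_le_mul_of_nonneg_right (habs 1 B) (prod_nonneg fun i _ => hr _))
    (fun b0 hb0 Z hZ r hr hr' => by
      rw [hPe]
      have h := (hF1 b0 (by rw [hpow]; exact hb0) r hr hr').2
        ((MMt (Tst I.K0) (prm : Si I.K0 I.C1 I.P → ℕ) ⌊Real.exp (θ * I.P)⌋₊).filter
          (fun m : ℕ => Z < (m : ℝ)))
        (fun m hm => by
          obtain ⟨⟨a1, _⟩, a2, a3⟩ := H362.mem_MMt.1 (mem_filter.1 hm).1
          exact ⟨by omega, a2, a3⟩) Z hZ (fun m hm => (mem_filter.1 hm).2)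
      refine le_trans (sum_le_sum fun m _ => sum_le_sum fun B _ => ?_) h
      exact mul_le_mul_of_nonneg_right (habs m B) (prod_nonneg fun i _ => hr _))
    (fun m hm _ => by
      rw [← hk]
      exact H85.sup_i hOk hQC hQp h1P (by linarith) (by have := hOk.k2; omega) hK0 hn hlaw
        (fun i hi n n' => hhigh i hi n n') hopt hm)
  rw [hPe] at key
  obtain ⟨e, e', b, h0, h1, h2, h3, h4, h5, h6⟩ := hTl
  exact ⟨e, e', b, b, H362.KW I hsub K, h0, h0, h1, h2, h3, h4, h5,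
    fun i n _ m _ => h6 i (hsub i.2) n m, H362.last_of I hsub K hm.1 hm.2 key⟩

/-- **the local theorem at one degree and one content** -/
theorem loc_kR (hB : BTSof) (hO : BOof) (hL : LawF) (hF : F1F) (k R : ℕ) (hk : 2 ≤ k)
    (hR : 1 ≤ R) :
    ∃ (z : Loc) (thr : ℝ → ℕ) (thb : ℝ → ℕ → ℝ), LocOk z ∧ z.C1 = 4 ∧ (∀ κ n, 0 < thb κ n) ∧
    ∀ (C1 : ℕ → ℝ) (cs : ℕ → ℕ → H387.Cst) (par : ℕ → ℕ → ℝ → H362.FP),
      FitAt z thr thb C1 cs par k R →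
    ∀ thQ : ℝ, 0 < thQ → thQ ≤ 1 / 16 →
    ∃ g θ κs : ℝ, 0 < g ∧ g ≤ 1 / 2 ∧ 0 < θ ∧ θ ≤ thQ / 16 ∧ 0 < κs ∧
    ∀ κ : ℝ, 0 < κ → κ ≤ κs → ∀ ε : ℝ, 0 < ε → ∃ P0 : ℝ, ∀ P : ℝ, P0 ≤ P →
    ∀ (f : ℤ[X]) (N' : ℕ) (G : ℤ → ℝ), f.natDegree = k → 0 < f.leadingCoeff →
      (∀ g : ℤ, (∀ j : ℕ, 1 ≤ j → g ∣ f.coeff j) → g ∣ (R : ℤ)) →
      (∀ j : ℕ, |(f.coeff j : ℝ)| ≤ Real.exp (2 * k * κ * P)) →
      Base6 f κ P N' G → H362.StF par (H387.mkFam C1 cs par) k R f κ P N' G →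
      HLOCat (C1 k) k R (H387.K0fun par k R κ) g θ ε P f N' G := by
  obtain ⟨C2, c4, hC2, hc4, HF⟩ := hF k R hk hR
  obtain ⟨CK0, H⟩ := H85.hfin hB hO (C1 := 4) le_rfl k (cr := 1 / (2 ^ 11 * 4)) (C2 := C2)
    (c4 := c4) (by norm_num) (by norm_num) hC2 hc4
  obtain ⟨CK, hCKd⟩ : ∃ CK : ℕ, CK = max CK0 12 := ⟨_, rfl⟩
  have hCK12 : 12 ≤ CK := hCKd ▸ le_max_right _ _
  obtain ⟨G0, hG0, H⟩ := H CK (hCKd ▸ le_max_left _ _)
  obtain ⟨G, hGd⟩ : ∃ G : ℝ, G = min G0 (1 / 4) := ⟨_, rfl⟩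
  have hG : 0 < G := hGd ▸ lt_min hG0 (by norm_num)
  have hG4 : G ≤ 1 / 4 := hGd ▸ min_le_right _ _
  obtain ⟨δ0, hδ0, g0, hg0, k0', hk0', H⟩ := H G hG (hGd ▸ min_le_left _ _)
  obtain ⟨k0, hk0d⟩ : ∃ k0 : ℝ, k0 = min k0' 1 := ⟨_, rfl⟩
  have hk0 : 0 < k0 := hk0d ▸ lt_min hk0' one_pos
  have hk01 : k0 ≤ 1 := hk0d ▸ min_le_right _ _
  have hk0l : k0 ≤ k0' := hk0d ▸ min_le_left _ _
  have hCKr : (12 : ℝ) ≤ CK := by exact_mod_cast hCK12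
  have hCKp : (0 : ℝ) < CK := by linarith
  obtain ⟨g, hgd⟩ : ∃ g : ℝ, g = min g0 (min (k0 / 64) (G / (1024 * CK))) := ⟨_, rfl⟩
  have hg : 0 < g := hgd ▸ lt_min hg0 (lt_min (by positivity) (by positivity))
  have hgg : g ≤ g0 := hgd ▸ min_le_left _ _
  have hgk : 64 * g ≤ k0 := by
    have h1 : g ≤ k0 / 64 := hgd ▸ (min_le_right _ _).trans (min_le_left _ _)
    linarith
  have hgG : 1024 * (g * CK) ≤ G := by
    have h1 : g ≤ G / (1024 * CK) := hgd ▸ (min_le_right _ _).trans (min_le_right _ _)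
    rw [le_div_iff₀ (by positivity)] at h1
    linarith
  have hz0 : ∀ K1, LocOk (mkLoc C2 c4 CK G δ0 k0 g K1) := fun K1 =>
    mkLoc_ok K1 hC2 hc4 hCK12 hG hG4 hδ0 hk0 hk01 hg hgk hgG
  have hz1 := hz0 0
  obtain ⟨K1, H⟩ := H g (mkLoc C2 c4 CK G δ0 k0 g 0).kap (mkLoc C2 c4 CK G δ0 k0 g 0).γ
    (mkLoc C2 c4 CK G δ0 k0 g 0).d1 (12 * (g * 4)) hg hgg hz1.kap0
    (by show 32 * (g / 32) ≤ g; linarith) hz1.γ0
    (hz1.γk.trans (mul_le_mul_of_nonneg_right hk0l hz1.kap0.le)) (by linarith)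
    (by show 12 * (g * 4) < 16 * (g * 4); linarith) hz1.d12 (hz1.d1k.trans hk0l) 10 (by norm_num)
  obtain ⟨z, hzd⟩ : ∃ z : Loc, z = mkLoc C2 c4 CK G δ0 k0 g K1 := ⟨_, rfl⟩
  have hz : LocOk z := hzd ▸ hz0 K1
  have hzC1 : z.C1 = 4 := by rw [hzd]; rfl
  -- the tail
  have HT : ∀ θ c0 cD ε : ℝ, 0 < θ → 0 < c0 → 0 < cD → cD ≤ z.k0 * (z.γ * θ) → 0 < ε →
      ∃ p0 : ℝ, ∀ p : ℝ, p0 ≤ p → HTail k z.C1 z.cr z.C2 z.c4 z.δ0 z.g z.d1
        (12 * (z.g * z.C1)) ε θ p z.K1 (z.Q θ c0 cD p) := by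
    intro θ c0 cD ε hθ hc0 hcD hcDk hε
    subst hzd
    obtain ⟨p0, H⟩ := H θ c0 cD ε θ hθ hc0 hcD
      (hcDk.trans (mul_le_mul_of_nonneg_right hk0l (mul_nonneg hz1.γ0.le hθ.le))) hε hθ
    exact ⟨p0, fun p hp => H p hp _ rfl⟩
  clear H
  obtain ⟨thrL, thbL, hthbL, HL⟩ := hL k R z hk hR hz
  obtain ⟨thrF, thbF, hthbF, HF⟩ := HF z hz (by rw [hzd]; rfl) (by rw [hzd]; rfl)
  obtain ⟨K00, Pk, HK⟩ := kin k (by omega : 1 ≤ k) (α := z.α) (γ := z.γ) (b := z.α / 16)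
    (gr := z.α / 4) (kap := z.kap) hz.α0 hz.α48 hz.α14 (by have := hz.α0; linarith)
    (by have := hz.α0; linarith) hz.kap0 hz.kap1 hz.αkap
  refine ⟨z, fun κ => max (max (thrL κ) (thrF κ)) (max (2 ^ z.K1) K00),
    fun κ n => min (thbL κ n) (thbF κ n), hz, hzC1, fun κ n => lt_min (hthbL κ n) (hthbF κ n), ?_⟩
  intro C1 cs par hfit thQ hthQ hthQ1
  obtain ⟨θL, hθL, HL⟩ := HL C1 cs par (hfit.mono
    (fun κ => (le_max_left _ _).trans (le_max_left _ _)) fun κ n => min_le_left _ _)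
  obtain ⟨θF, hθF, HF⟩ := HF C1 cs par (hfit.mono
    (fun κ => (le_max_right _ _).trans (le_max_left _ _)) fun κ n => min_le_right _ _)
  obtain ⟨θ, hθd⟩ : ∃ θ : ℝ, θ = min (min θL θF) (thQ / 16) := ⟨_, rfl⟩
  have hθ : 0 < θ := hθd ▸ lt_min (lt_min hθL hθF) (by positivity)
  obtain ⟨κL, hκL, HL⟩ := HL θ hθ (hθd ▸ (min_le_left _ _).trans (min_le_left _ _))
  obtain ⟨κF, hκF, HF⟩ := HF θ hθ (hθd ▸ (min_le_left _ _).trans (min_le_right _ _))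
  refine ⟨z.kap, θ, min κL κF, hz.kap0, hz.kap1, hθ, hθd ▸ min_le_right _ _, lt_min hκL hκF, ?_⟩
  intro κ hκ hκs ε hε
  obtain ⟨c0, cD, hc0, hcD, hcDk, PL, HL⟩ := HL κ hκ (hκs.trans (min_le_left _ _))
  obtain ⟨PF, HF⟩ := HF κ hκ (hκs.trans (min_le_right _ _))
  obtain ⟨p0, HT⟩ := HT θ c0 cD ε hθ hc0 hcD hcDk hε
  obtain ⟨x, hx⟩ : ∃ x : ℝ, (H883.nlo (H387.K0fun par k R κ) : ℝ) * Real.log 2 = x := ⟨_, rfl⟩
  refine ⟨max (max PL PF) (max (max Pk (Real.exp p0)) (max (Real.exp 1) (Real.exp x))),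
    fun P hP f N' G' hdeg hlead hcont hcoef hbase hSt => ?_⟩
  have hPL : PL ≤ P := (le_max_left _ _).trans ((le_max_left _ _).trans hP)
  have hPF : PF ≤ P := (le_max_right _ _).trans ((le_max_left _ _).trans hP)
  have hPk : Pk ≤ P :=
    (le_max_left _ _).trans ((le_max_left _ _).trans ((le_max_right _ _).trans hP))
  have hPp : Real.exp p0 ≤ P :=
    (le_max_right _ _).trans ((le_max_left _ _).trans ((le_max_right _ _).trans hP))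
  have hP1 : Real.exp 1 ≤ P :=
    (le_max_left _ _).trans ((le_max_right _ _).trans ((le_max_right _ _).trans hP))
  have hPx : Real.exp x ≤ P :=
    (le_max_right _ _).trans ((le_max_right _ _).trans ((le_max_right _ _).trans hP))
  have hP0 : 0 < P := (Real.exp_pos _).trans_le hP1
  have hp0 : p0 ≤ Real.log P := by
    rw [Real.le_log_iff_exp_le hP0]
    exact hPp
  have hpx : x ≤ Real.log P := by
    rw [Real.le_log_iff_exp_le hP0]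
    exact hPx
  have hp1 : 1 ≤ Real.log P := by
    rw [Real.le_log_iff_exp_le hP0]
    exact hP1
  obtain ⟨mu, hst, hG'⟩ := hSt
  have hFit := hfit.fit κ hκ
  have hK0 : max (max (thrL κ) (thrF κ)) (max (2 ^ z.K1) K00) ≤ H387.K0fun par k R κ := by
    refine hFit.K0.trans ?_
    unfold H387.K0fun
    exact (le_max_left _ _).trans (le_max_left _ _)
  have hK0a : 2 ^ z.K1 ≤ H387.K0fun par k R κ :=
    ((le_max_left _ _).trans (le_max_right _ _)).trans hK0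
  have hK0b : K00 ≤ H387.K0fun par k R κ :=
    ((le_max_right _ _).trans (le_max_right _ _)).trans hK0
  refine H362.hlocat_of mu hk hR ((le_max_right _ _).trans (le_max_left _ _)) (le_max_right _ _)
    hdeg hlead hcont hbase hG' fun I hOk i1 i2 i3 i4 i5 i6 i7 i8 i9 => ?_
  subst i1 i2 i5 i6 i7 i8 i9
  have hAt : At C1 cs par I.k I.R κ I.P I := ⟨rfl, rfl, i3, i4, rfl, hOk, hst⟩
  have hIC : I.C1 = z.C1 := i4.trans hfit.eC1
  have hlaw := HL I.P hPL I hAt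
  have hWF : H362.WF (par I.k I.R κ) I.k I.R I.P = Typ I.K0 I.C1 I.P := by
    rw [WF_eq (par I.k I.R κ) I.k I.R I.K0 I.P i3, hFit.eC1, ← i4]
  have hat : H362.AtF (Typ I.K0 I.C1 I.P) (par I.k I.R κ) I.f I.N I.mu
      ((par I.k I.R κ).kp * I.P / 64) := by
    rw [← hWF]
    exact hst.toAtF
  have hb : (par I.k I.R κ).b = z.α / 16 := by rw [hFit.b, hfit.ecs]; rfl
  have hgr : (par I.k I.R κ).gr = z.α / 4 := by rw [hFit.gr, hfit.ecs]; rfl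
  obtain ⟨K, w, w', s, rho, ee, k1, k2, k3, k4, k5⟩ := HK I κ _ (par I.k I.R κ)
    (z.Q θ c0 cD (Real.log I.P)) rfl hOk (by rw [i3]; exact hK0b) hPk
    (by rw [hIC, hzC1]; have := hz.kap0; linarith) rfl rfl rfl hb hgr hat
  have hF1 : F1At I z θ K := HF I.P hPF I hAt K w w' s rho ee k4.ob
    (fun i => k4.rho1 i (mem_univ i)) (fun i => k4.e1 i (mem_univ i)) (fun i hi n n' => k2 i hi n n')
  exact end_at hz rfl hOk hIC hP1
    (by
      rw [i3, hx, hIC, hzC1]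
      linarith) (by rw [i3]; exact hK0a) (HT _ hp0) hlaw k1 (fun i hi n m => k2 i hi n m) k4
    (fun m _ hm hc => k5 m hm hc) hF1

open Classical in
/-- **THE LOCAL THEOREM** from its four parts -/
theorem locF_of (hB : BTSof) (hO : BOof) (hL : LawF) (hF : F1F) : H387.LocF := by
  have H := fun (k R : ℕ) (h : 2 ≤ k ∧ 1 ≤ R) => loc_kR hB hO hL hF k R h.1 h.2
  choose z thr thb h1 h2 h3 h4 using H
  refine ⟨fun _ => 4, fun _ => by norm_num,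
    fun k R => if h : 2 ≤ k ∧ 1 ≤ R then cstOf (z k R h) else ⟨1, 1 / 4, 0, 1, 1⟩,
    fun k R _ => ?_, fun _ _ _ => 1, fun _ _ _ => one_pos,
    fun k R κ => if h : 2 ≤ k ∧ 1 ≤ R then thr k R h κ else 0,
    fun k R κ n => if h : 2 ≤ k ∧ 1 ≤ R then thb k R h κ n else 1, fun k R κ n => ?_,
    fun par hfit => ?_⟩
  · beta_reduce
    by_cases h : 2 ≤ k ∧ 1 ≤ R
    · rw [dif_pos h]
      exact cstOk_of (h1 k R h)
    · rw [dif_neg h]
      exact ⟨one_pos, le_rfl, le_rfl, le_rfl⟩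
  · beta_reduce
    by_cases h : 2 ≤ k ∧ 1 ≤ R
    · rw [dif_pos h]
      exact h3 k R h κ n
    · rw [dif_neg h]
      exact one_pos
  · intro k R hk hR
    have h : 2 ≤ k ∧ 1 ≤ R := ⟨hk, hR⟩
    refine h4 k R h _ _ par ⟨(h2 k R h).symm, dif_pos h, fun κ hκ => ?_⟩
    have hq := hfit k R κ hk hκ
    have hthr := hq.K0
    have hthb := hq.be
    rw [dif_pos h] at hthr hthb
    exact ⟨hq.ok, hq.eC1, hq.g, hq.gr, hq.gc, hq.b, hq.ga, hq.kp, hthr, hthb⟩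

end Vale.Agent.P042.H860
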