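import Vale.Agent.P042.H860.Loc

set_option autoImplicit false

/-!
# P042, power regime: the constants of the local theorem
-/

namespace Vale.Agent.P042.H860

/-- the local constants, primes up to `P ^ 4` -/
noncomputable def mkLoc (C2 c4 : ℝ) (CK : ℕ) (G δ0 k0 g : ℝ) (K1 : ℕ) : Loc where
  C1 := 4
  cr := 1 / (2 ^ 11 * 4)
  C2 := C2
  c4 := c4
  CK := CK
  G := G
  gs := 8 * g
  δ0 := δ0
  k0 := k0
  g := g
  kap := g / 32
  d1 := 16 * (g * 4)
  γ := min (k0 * (g / 32)) (g / 32 / 2000)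
  α := min (k0 * (g / 32)) (g / 32 / 2000) / (64 * 4)
  a0 := 10
  K1 := K1

theorem mkLoc_ok {C2 c4 : ℝ} {CK : ℕ} {G δ0 k0 g : ℝ} (K1 : ℕ) (hC2 : 0 ≤ C2) (hc4 : 0 < c4)
    (hCK : 12 ≤ CK) (hG : 0 < G) (hG1 : G ≤ 1 / 4) (hδ : 0 < δ0) (hk0 : 0 < k0) (hk1 : k0 ≤ 1)
    (hg : 0 < g) (hgk : 64 * g ≤ k0) (hgG : 1024 * (g * CK) ≤ G) :
    LocOk (mkLoc C2 c4 CK G δ0 k0 g K1) where
  C1 := le_rfl
  cr := rfl
  C2 := hC2
  c4 := hc4
  CK := hCK
  G0 := hG
  G1 := hG1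
  gs := by show 0 < 8 * g; linarith
  δ0 := hδ
  k0 := hk0
  k01 := hk1
  g0 := hg
  ggs := le_rfl
  gC1 := by
    have h1 : (12 : ℝ) ≤ CK := by exact_mod_cast hCK
    show 32 * (g * 4) ≤ 1
    nlinarith
  kap := rfl
  d1 := rfl
  d1k := by show 16 * (g * 4) ≤ k0; linarith
  d1CK := by show 16 * (16 * (g * 4) * (CK : ℝ)) ≤ G; linarith
  γ0 := by
    show 0 < min (k0 * (g / 32)) (g / 32 / 2000)
    exact lt_min (by positivity) (by positivity)
  γk := min_le_left _ _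
  γkap := min_le_right _ _
  α0 := by
    show 0 < min (k0 * (g / 32)) (g / 32 / 2000) / (64 * 4)
    have : 0 < min (k0 * (g / 32)) (g / 32 / 2000) := lt_min (by positivity) (by positivity)
    positivity
  αγ := rfl
  a0 := rfl

/-- consequences of the relations -/
theorem LocOk.g_le {z : Loc} (h : LocOk z) : z.g ≤ 1 / 1024 := by
  have h1 := h.d1CK
  have h2 := h.C1
  have h3 := h.g0
  have h4 : (12 : ℝ) ≤ z.CK := by exact_mod_cast h.CK
  have h5 := h.G1
  rw [h.d1] at h1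
  have h6 : 0 < z.g * z.C1 := mul_pos h3 (by linarith)
  have h7 : z.g * 4 ≤ z.g * z.C1 := mul_le_mul_of_nonneg_left h2 h3.le
  nlinarith

theorem LocOk.kap0 {z : Loc} (h : LocOk z) : 0 < z.kap := by
  rw [h.kap]; have := h.g0; positivity

theorem LocOk.kap1 {z : Loc} (h : LocOk z) : z.kap ≤ 1 / 2 := by
  rw [h.kap]; have := h.g_le; linarith

theorem LocOk.d10 {z : Loc} (h : LocOk z) : 0 < z.d1 := by
  rw [h.d1]; have := h.g0; have := h.C1; positivity

theorem LocOk.d12 {z : Loc} (h : LocOk z) : 2 * z.d1 < 1 := by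
  have h1 := h.d1CK
  have h4 : (12 : ℝ) ≤ z.CK := by exact_mod_cast h.CK
  have h5 := h.G1
  have h6 := h.d10
  nlinarith

theorem LocOk.αγ' {z : Loc} (h : LocOk z) : z.α * z.C1 ≤ z.γ / 64 := by
  have h1 := h.C1
  rw [h.αγ]
  refine le_of_eq ?_
  field_simp

theorem LocOk.α14 {z : Loc} (h : LocOk z) : 14 * z.α ≤ z.γ := by
  have h1 := h.C1
  have h2 := h.γ0
  have h3 := h.αγ'
  have h4 := h.α0
  nlinarith

theorem LocOk.αkap {z : Loc} (h : LocOk z) : z.α ≤ z.kap / 128 := by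
  have h1 := h.α14
  have h2 := h.γkap
  have h3 := h.kap0
  linarith

theorem LocOk.α48 {z : Loc} (h : LocOk z) : z.α ≤ 1 / 48 := by
  have h1 := h.αkap
  have h2 := h.kap1
  linarith

/-- the constants of the state are admissible -/
theorem cstOk_of {z : Loc} (h : LocOk z) : H387.CstOk (cstOf z) where
  γ0 := h.α0
  γ1 := by
    show z.α ≤ 1
    have := h.α48
    linarith
  a1 := by
    show 0 ≤ 2 * z.d1
    have := h.d10
    linarith
  Kc := le_rfl

end Vale.Agent.P042.H860
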